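import Vale.Agent.P039.Duality
import Mathlib.Combinatorics.SimpleGraph.Hamiltonian
import Mathlib.Combinatorics.SimpleGraph.Connectivity.Subgraph
import Mathlib.Data.Set.Card

/-!
# P039 (H560): a Hamiltonian cycle divides the faces into two induced trees of the dual graph
-/

namespace Vale.Agent.P039.H560

open SimpleGraph Finset

variable {V : Type*} {G : SimpleGraph V}

theorem faceOf_rot (R : Rotation G) (d : G.Dart) : R.faceOf (R.rot d) = R.faceOf d.symm := by
  have := R.faceOf_rot_symm d.symm
  rwa [SimpleGraph.Dart.symm_symm] at this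

theorem zmod2_eq_of_add {a b : ZMod 2} (h : a + b = 0) : a = b := by
  revert a b
  decide

theorem zmod2_cases (a : ZMod 2) : a = 0 ∨ a = 1 := by
  revert a
  decide

/-- the edge `d` belongs to the closed walk `p` -/
def InC {w : V} (p : G.Walk w w) (d : G.Dart) : Prop := d.edge ∈ p.edges

theorem inC_symm {w : V} {p : G.Walk w w} {d : G.Dart} (h : InC p d) : InC p d.symm := by
  unfold InC at *
  rw [SimpleGraph.Dart.edge_symm]
  exact h

/-- the darts of the Hamiltonian cycle at a vertex -/
theorem ncard_inC [DecidableEq V] {w : V} {p : G.Walk w w} (hp : p.IsHamiltonianCycle) (v : V) :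
    {d : G.Dart | d.fst = v ∧ InC p d}.ncard = 2 := by
  rw [← hp.isCycle.ncard_neighborSet_toSubgraph_eq_two (hp.mem_support v)]
  have h1 : p.toSubgraph.neighborSet v =
      (fun d : G.Dart => d.snd) '' {d : G.Dart | d.fst = v ∧ InC p d} := by
    ext x
    constructor
    · intro hx
      have hx' : p.toSubgraph.Adj v x := hx
      refine ⟨⟨(v, x), hx'.adj_sub⟩, ⟨rfl, ?_⟩, rfl⟩
      exact (Walk.adj_toSubgraph_iff_mem_edges).1 hx'
    · rintro ⟨⟨⟨a, b⟩, hab⟩, ⟨h1, h2⟩, h3⟩
      simp only at h1 h3
      subst h1 h3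
      exact (Walk.adj_toSubgraph_iff_mem_edges).2 h2
  rw [h1]
  refine (Set.ncard_image_of_injOn ?_).symm
  rintro ⟨⟨a, b⟩, hab⟩ ⟨h1, _⟩ ⟨⟨a', b'⟩, hab'⟩ ⟨h1', _⟩ h
  simp only at h1 h1' h
  subst h1 h1' h
  rfl

section Even

variable [Fintype V] [DecidableEq V]

open Classical in
/-- sums over the darts at a vertex of a function supported on the cycle -/
theorem exists_two {w : V} {p : G.Walk w w} (hp : p.IsHamiltonianCycle) (v : V) :
    ∃ d d' : G.Dart, d ≠ d' ∧ d.fst = v ∧ d'.fst = v ∧ InC p d ∧ InC p d' ∧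
      ∀ x : G.Dart → ZMod 2, (∀ e, ¬ InC p e → x e = 0) →
        (∑ e : G.Dart, if e.fst = v then x e else 0) = x d + x d' := by
  obtain ⟨d, d', hne, h⟩ := Set.ncard_eq_two.1 (ncard_inC hp v)
  have hd : d ∈ {d : G.Dart | d.fst = v ∧ InC p d} := by rw [h]; exact Or.inl rfl
  have hd' : d' ∈ {d : G.Dart | d.fst = v ∧ InC p d} := by rw [h]; exact Or.inr rfl
  refine ⟨d, d', hne, hd.1, hd'.1, hd.2, hd'.2, fun x hx => ?_⟩
  rw [← Finset.sum_pair hne]
  symm
  have h1 : ∀ e ∈ ({d, d'} : Finset G.Dart), x e = if e.fst = v then x e else 0 := by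
    intro e he
    rw [Finset.mem_insert, Finset.mem_singleton] at he
    rcases he with rfl | rfl
    · rw [if_pos hd.1]
    · rw [if_pos hd'.1]
  rw [Finset.sum_congr rfl h1]
  refine Finset.sum_subset (Finset.subset_univ _) fun e _ he => ?_
  by_cases hev : e.fst = v
  · rw [if_pos hev]
    refine hx e fun hC => he ?_
    have : e ∈ {d : G.Dart | d.fst = v ∧ InC p d} := ⟨hev, hC⟩
    rw [h] at this
    rw [Finset.mem_insert, Finset.mem_singleton]
    exact this
  · rw [if_neg hev]

/-- an even function supported on the cycle is constant on it -/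
theorem const_on_cycle {w : V} {p : G.Walk w w} (hp : p.IsHamiltonianCycle)
    (x : G.Dart → ZMod 2) (hs : ∀ d, x d.symm = x d) (h0 : ∀ e, ¬ InC p e → x e = 0)
    (hx : ∀ v, (open Classical in ∑ e : G.Dart, if e.fst = v then x e else 0) = 0)
    {d d' : G.Dart} (hd : InC p d) (hd' : InC p d') : x d = x d' := by
  classical
  -- two darts of the cycle at the same vertex
  have key : ∀ d d' : G.Dart, InC p d → InC p d' → d.fst = d'.fst → x d = x d' := by
    intro d d' hd hd' hdd'
    by_cases hne : d = d'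
    · rw [hne]
    · obtain ⟨a, b, hab, ha, hb, haC, hbC, hsum⟩ := exists_two hp d.fst
      have h1 : ({d, d'} : Set G.Dart) = {e : G.Dart | e.fst = d.fst ∧ InC p e} := by
        refine Set.eq_of_subset_of_ncard_le ?_ ?_ (Set.toFinite _)
        · rintro e (rfl | rfl)
          · exact ⟨rfl, hd⟩
          · exact ⟨hdd'.symm, hd'⟩
        · rw [ncard_inC hp, Set.ncard_pair hne]
      have ha' : a ∈ ({d, d'} : Set G.Dart) := by rw [h1]; exact ⟨ha, haC⟩
      have hb' : b ∈ ({d, d'} : Set G.Dart) := by rw [h1]; exact ⟨hb, hbC⟩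
      have h2 := hx d.fst
      rw [hsum x h0] at h2
      have h3 := zmod2_eq_of_add h2
      rcases ha' with rfl | rfl <;> rcases hb' with rfl | rfl
      · exact absurd rfl hab
      · exact h3
      · exact h3.symm
      · exact absurd rfl hab
  have walk : ∀ {a b : V} (q : G.Walk a b), (∀ e ∈ q.edges, e ∈ p.edges) →
      ∀ d d' : G.Dart, InC p d → InC p d' → d.fst = a → d'.fst = b → x d = x d' := by
    intro a b q
    induction q with
    | nil => exact fun _ d d' hd hd' h1 h2 => key d d' hd hd' (h1.trans h2.symm)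
    | @cons a a' b h q ih =>
      intro hq d d' hd hd' h1 h2
      have hC : InC p (⟨(a, a'), h⟩ : G.Dart) := hq _ (by simp)
      have e1 : x d = x ⟨(a, a'), h⟩ := key _ _ hd hC h1
      have e2 : x (⟨(a, a'), h⟩ : G.Dart).symm = x ⟨(a, a'), h⟩ := hs _
      rw [e1, ← e2]
      exact ih (fun e he => hq e (by simp [he])) _ d' (inC_symm hC) hd' rfl h2
  -- compare with a dart at the base vertex
  obtain ⟨c, _, _, hc, _, hcC, _⟩ := exists_two hp w
  have hbase : ∀ d, InC p d → x c = x d := fun d hd =>
    walk (p.takeUntil d.fst (hp.mem_support _)) (fun e he => p.edges_takeUntil_subset _ he) c d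
      hcC hd hc rfl
  rw [← hbase d hd, hbase d' hd']

end Even

section Plane

variable [Fintype V] [DecidableEq V] (R : Rotation G)

theorem sum_rot (t : R.Face → ZMod 2) (v : V) :
    (open Classical in ∑ e : G.Dart, if e.fst = v then
      t (R.faceOf e) + t (R.faceOf e.symm) else 0) = 0 := by
  classical
  have h1 : ∀ e : G.Dart, (if e.fst = v then t (R.faceOf e) + t (R.faceOf e.symm) else 0) =
      (if e.fst = v then t (R.faceOf e) else 0) +
        (if (R.rot e).fst = v then t (R.faceOf (R.rot e)) else 0) := by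
    intro e
    rw [faceOf_rot, R.fst_rot]
    split_ifs <;> simp
  rw [Finset.sum_congr rfl fun e _ => h1 e, Finset.sum_add_distrib,
    Equiv.sum_comp R.rot (fun e => if e.fst = v then t (R.faceOf e) else 0)]
  exact zmod2_add_self _

open Classical in
/-- indicator of the cycle -/
noncomputable def yC {w : V} (p : G.Walk w w) : G.edgeSet → ZMod 2 :=
  fun e => if e.1 ∈ p.edges then 1 else 0

theorem yC_of {w : V} {p : G.Walk w w} {d : G.Dart} (h : InC p d) : yC p (edgeOf d) = 1 :=
  if_pos h

theorem yC_not {w : V} {p : G.Walk w w} {d : G.Dart} (h : ¬ InC p d) : yC p (edgeOf d) = 0 :=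
  if_neg h

theorem vertMat_T (y : G.edgeSet → ZMod 2) (v : V) :
    (vertMat G).transpose.mulVec y v =
      (open Classical in ∑ d : G.Dart, if d.fst = v then y (edgeOf d) else 0) := by
  classical
  simp only [Matrix.mulVec, dotProduct, Matrix.transpose_apply]
  unfold vertMat
  simp only [Finset.sum_mul]
  rw [Finset.sum_comm]
  apply Finset.sum_congr rfl
  intro d _
  rw [Finset.sum_eq_single (edgeOf d)]
  · simp
  · intro e _ he
    rw [if_neg (Ne.symm he), zero_mul]
  · intro h
    exact absurd (mem_univ _) h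

theorem yC_even {w : V} {p : G.Walk w w} (hp : p.IsHamiltonianCycle) :
    (vertMat G).transpose.mulVec (yC p) = 0 := by
  classical
  funext v
  rw [vertMat_T]
  obtain ⟨d, d', _, _, _, hd, hd', hsum⟩ := exists_two hp v
  rw [hsum (fun d => yC p (edgeOf d)) fun e he => yC_not he, yC_of hd, yC_of hd']
  rfl

/-- the two sides of the cycle -/
theorem exists_sides {w : V} {p : G.Walk w w} (hp : p.IsHamiltonianCycle) (hG : G.Connected)
    (hR : R.Spherical) : ∃ z : R.Face → ZMod 2, (∀ d : G.Dart, InC p d →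
      z (R.faceOf d.symm) ≠ z (R.faceOf d)) ∧ ∀ d : G.Dart, ¬ InC p d →
      z (R.faceOf d.symm) = z (R.faceOf d) := by
  have hE : Fintype.card V + Fintype.card R.Face = Fintype.card G.edgeSet + 2 := by
    have h := hR
    unfold Rotation.Spherical at h
    rw [Nat.card_eq_fintype_card, Nat.card_eq_fintype_card, Nat.card_eq_fintype_card] at h
    exact h
  obtain ⟨z, hz⟩ := exists_face_coboundary R hG.preconnected hE (yC p) (yC_even hp)
  refine ⟨z, fun d hd h => ?_, fun d hd => ?_⟩
  · have h1 := hz d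
    rw [yC_of hd, h, zmod2_add_self] at h1
    exact one_ne_zero h1
  · have h1 := hz d
    rw [yC_not hd] at h1
    exact (zmod2_eq_of_add h1.symm).symm

theorem dual_adj {d : G.Dart} (h : R.faceOf d ≠ R.faceOf d.symm) :
    R.dual.Adj (R.faceOf d) (R.faceOf d.symm) := by
  unfold Rotation.dual
  rw [SimpleGraph.fromRel_adj]
  exact ⟨h, Or.inl ⟨d, rfl, rfl⟩⟩

theorem exists_of_dual_adj {f g : R.Face} (h : R.dual.Adj f g) :
    ∃ d : G.Dart, R.faceOf d = f ∧ R.faceOf d.symm = g := by
  unfold Rotation.dual at h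
  rw [SimpleGraph.fromRel_adj] at h
  rcases h.2 with ⟨d, h1, h2⟩ | ⟨d, h1, h2⟩
  · exact ⟨d, h1, h2⟩
  · refine ⟨d.symm, h2, ?_⟩
    rw [SimpleGraph.Dart.symm_symm]
    exact h1

/-- each side is connected -/
theorem side_connected {w : V} {p : G.Walk w w} (hp : p.IsHamiltonianCycle) (hG : G.Connected)
    (z : R.Face → ZMod 2) (hz1 : ∀ d : G.Dart, InC p d → z (R.faceOf d.symm) ≠ z (R.faceOf d))
    (hz0 : ∀ d : G.Dart, ¬ InC p d → z (R.faceOf d.symm) = z (R.faceOf d)) (k : ZMod 2) :
    (R.dual.induce {f | z f = k}).Connected := by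
  classical
  obtain ⟨c, _, _, _, _, hcC, _, _⟩ := exists_two hp w
  -- both values are taken
  have hval : ∀ k : ZMod 2, ∃ f, z f = k := by
    intro k
    have h1 := hz1 c hcC
    rcases zmod2_cases k with rfl | rfl <;>
      rcases zmod2_cases (z (R.faceOf c)) with h2 | h2 <;>
      rcases zmod2_cases (z (R.faceOf c.symm)) with h3 | h3
    · exact absurd (h3.trans h2.symm) h1
    · exact ⟨_, h2⟩
    · exact ⟨_, h3⟩
    · exact absurd (h3.trans h2.symm) h1
    · exact absurd (h3.trans h2.symm) h1
    · exact ⟨_, h3⟩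
    · exact ⟨_, h2⟩
    · exact absurd (h3.trans h2.symm) h1
  obtain ⟨f0, hf0⟩ := hval k
  have : Nonempty {f | z f = k} := ⟨⟨f0, hf0⟩⟩
  refine (SimpleGraph.connected_iff _).2 ⟨?_, this⟩
  suffices hall : ∀ g (hg : z g = k), (R.dual.induce {f | z f = k}).Reachable ⟨f0, hf0⟩ ⟨g, hg⟩ by
    rintro ⟨f, hf⟩ ⟨g, hg⟩
    exact (hall f hf).symm.trans (hall g hg)
  by_contra hcon
  push Not at hcon
  obtain ⟨g0, hg0, hng⟩ := hcon
  -- indicator of the component of `f0`
  set P : R.Face → Prop := fun f =>
    ∃ hf : z f = k, (R.dual.induce {f | z f = k}).Reachable ⟨f0, hf0⟩ ⟨f, hf⟩ with hP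
  set t : R.Face → ZMod 2 := fun f => if P f then 1 else 0 with ht
  have hstep : ∀ d : G.Dart, ¬ InC p d → t (R.faceOf d) = t (R.faceOf d.symm) := by
    intro d hd
    have hiff : P (R.faceOf d) ↔ P (R.faceOf d.symm) := by
      by_cases hfe : R.faceOf d = R.faceOf d.symm
      · rw [hfe]
      · have hz := hz0 d hd
        have hadj := dual_adj R hfe
        constructor
        · rintro ⟨hf, hr⟩
          have hf' : z (R.faceOf d.symm) = k := hz.trans hf
          refine ⟨hf', hr.trans (SimpleGraph.Adj.reachable ?_)⟩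
          exact hadj
        · rintro ⟨hf, hr⟩
          have hf' : z (R.faceOf d) = k := hz.symm.trans hf
          refine ⟨hf', hr.trans (SimpleGraph.Adj.reachable ?_)⟩
          exact hadj.symm
    simp only [ht]
    by_cases h : P (R.faceOf d)
    · rw [if_pos h, if_pos (hiff.1 h)]
    · rw [if_neg h, if_neg fun h' => h (hiff.2 h')]
  set x : G.Dart → ZMod 2 := fun d => t (R.faceOf d) + t (R.faceOf d.symm) with hx
  have hx0 : ∀ d, ¬ InC p d → x d = 0 := by
    intro d hd
    simp only [hx]
    rw [hstep d hd]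
    exact zmod2_add_self _
  have hxs : ∀ d, x d.symm = x d := by
    intro d
    simp only [hx, SimpleGraph.Dart.symm_symm]
    exact add_comm _ _
  have hxe : ∀ v, (∑ e : G.Dart, if e.fst = v then x e else 0) = 0 := fun v => sum_rot R t v
  have hconst := fun {d d' : G.Dart} (hd : InC p d) (hd' : InC p d') =>
    const_on_cycle hp x hxs hx0 (fun v => by
      convert hxe v) hd hd'
  have htf0 : t f0 = 1 := if_pos ⟨hf0, SimpleGraph.Reachable.refl _⟩
  have htg0 : t g0 = 0 := if_neg fun ⟨_, h⟩ => hng h
  rcases zmod2_cases (x c) with hxc | hxc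
  · -- `t` is constant
    have h1 : (faceMat R).transpose.mulVec t = 0 := by
      funext e
      obtain ⟨d, rfl⟩ := edgeOf_surj e
      rw [faceMat_transpose_mulVec]
      change x d = 0
      by_cases hd : InC p d
      · rw [hconst hd hcC, hxc]
      · exact hx0 d hd
    have h2 := eq_const_of_ker_faceMat_transpose R hG.preconnected t h1 f0 g0
    rw [htf0, htg0] at h2
    exact one_ne_zero h2
  · -- `t + z` is constant
    have h1 : (faceMat R).transpose.mulVec (fun f => t f + z f) = 0 := by
      funext e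
      obtain ⟨d, rfl⟩ := edgeOf_surj e
      rw [faceMat_transpose_mulVec]
      have h2 : t (R.faceOf d) + t (R.faceOf d.symm) = x d := rfl
      change t (R.faceOf d) + z (R.faceOf d) + (t (R.faceOf d.symm) + z (R.faceOf d.symm)) = 0
      rw [show t (R.faceOf d) + z (R.faceOf d) + (t (R.faceOf d.symm) + z (R.faceOf d.symm)) =
        (t (R.faceOf d) + t (R.faceOf d.symm)) + (z (R.faceOf d) + z (R.faceOf d.symm)) by ring,
        h2]
      by_cases hd : InC p d
      · rw [hconst hd hcC, hxc]
        have h3 := hz1 d hd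
        revert h3
        generalize z (R.faceOf d) = a
        generalize z (R.faceOf d.symm) = b
        revert a b
        decide
      · rw [hx0 d hd, hz0 d hd, zero_add]
        exact zmod2_add_self _
    obtain ⟨g1, hg1⟩ := hval (k + 1)
    have htg1 : t g1 = 0 := if_neg fun ⟨h, _⟩ => by
      rw [hg1] at h
      revert h
      generalize k = a
      revert a
      decide
    have h2 := eq_const_of_ker_faceMat_transpose R hG.preconnected _ h1 g0 g1
    simp only [htg0, htg1, hg0, hg1, zero_add] at h2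
    revert h2
    generalize k = a
    revert a
    decide

/-- the edges of the dual inside the two sides are dual to edges off the cycle -/
theorem edges_le {w : V} {p : G.Walk w w} (S : Set R.Face)
    (hS : ∀ d : G.Dart, InC p d → ¬ (R.faceOf d ∈ S ↔ R.faceOf d.symm ∈ S)) :
    Nat.card (R.dual.induce S).edgeSet + Nat.card (R.dual.induce Sᶜ).edgeSet ≤
      {e : G.edgeSet | e.1 ∉ p.edges}.ncard := by
  classical
  choose dd hdd using fun e : G.edgeSet => edgeOf_surj e
  set φ : G.edgeSet → Sym2 R.Face := fun e => s(R.faceOf (dd e), R.faceOf (dd e).symm) with hφ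
  have hφd : ∀ d : G.Dart, φ (edgeOf d) = s(R.faceOf d, R.faceOf d.symm) := by
    intro d
    have h1 := hdd (edgeOf d)
    rw [edgeOf_eq_iff] at h1
    simp only [hφ]
    rcases h1 with h1 | h1
    · rw [h1]
    · rw [h1, SimpleGraph.Dart.symm_symm]
      exact Sym2.eq_swap
  -- the edges inside a part
  have key : ∀ T : Set R.Face, (∀ d : G.Dart, InC p d → ¬ (R.faceOf d ∈ T ∧ R.faceOf d.symm ∈ T)) →
      Sym2.map Subtype.val '' (R.dual.induce T).edgeSet ⊆
        {a | a ∈ φ '' {e : G.edgeSet | e.1 ∉ p.edges} ∧ ∀ f ∈ a, f ∈ T} := by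
    intro T hT a ha
    obtain ⟨e, he, rfl⟩ := ha
    induction e using Sym2.ind with
    | _ f g =>
      rw [SimpleGraph.mem_edgeSet, SimpleGraph.comap_adj] at he
      obtain ⟨d, hd1, hd2⟩ := exists_of_dual_adj R he
      have hd1' : R.faceOf d = f.1 := hd1
      have hd2' : R.faceOf d.symm = g.1 := hd2
      refine ⟨⟨edgeOf d, ?_, ?_⟩, ?_⟩
      · intro hC
        exact hT d hC ⟨by rw [hd1']; exact f.2, by rw [hd2']; exact g.2⟩
      · rw [hφd, hd1', hd2', Sym2.map_mk]
      · intro x hx
        rw [Sym2.map_mk, Sym2.mem_iff] at hx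
        rcases hx with rfl | rfl
        · exact f.2
        · exact g.2
  have hcard : ∀ T : Set R.Face, Nat.card (R.dual.induce T).edgeSet =
      (Sym2.map Subtype.val '' (R.dual.induce T).edgeSet).ncard := by
    intro T
    rw [Set.ncard_image_of_injective _ (Sym2.map.injective Subtype.val_injective),
      Nat.card_coe_set_eq]
  have h1 := key S fun d hd h => hS d hd ⟨fun _ => h.2, fun _ => h.1⟩
  have h2 := key Sᶜ fun d hd h => hS d hd ⟨fun h' => absurd h' h.1, fun h' => absurd h' h.2⟩
  rw [hcard, hcard, ← Set.ncard_union_eq ?_ (Set.toFinite _) (Set.toFinite _)]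
  · refine le_trans (Set.ncard_le_ncard (t := φ '' {e : G.edgeSet | e.1 ∉ p.edges}) ?_
      (Set.toFinite _)) (Set.ncard_image_le (Set.toFinite _))
    exact Set.union_subset (fun a ha => (h1 ha).1) fun a ha => (h2 ha).1
  · rw [Set.disjoint_left]
    intro a ha ha'
    have h3 := (h1 ha).2
    have h4 := (h2 ha').2
    induction a using Sym2.ind with
    | _ f g => exact h4 f (Sym2.mem_mk_left _ _) (h3 f (Sym2.mem_mk_left _ _))

/-- **The dual form.** -/
theorem dual_trees {w : V} {p : G.Walk w w} (hp : p.IsHamiltonianCycle) (hG : G.Connected)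
    (hR : R.Spherical) : ∃ z : R.Face → ZMod 2,
      (∀ d : G.Dart, InC p d → z (R.faceOf d.symm) ≠ z (R.faceOf d)) ∧
      (∀ d : G.Dart, ¬ InC p d → z (R.faceOf d.symm) = z (R.faceOf d)) ∧
      ∀ k, (R.dual.induce {f | z f = k}).IsTree ∧ (R.dual.induce {f | z f = k}ᶜ).IsTree := by
  classical
  obtain ⟨z, hz1, hz0⟩ := exists_sides R hp hG hR
  refine ⟨z, hz1, hz0, fun k => ?_⟩
  have hconn := side_connected R hp hG z hz1 hz0
  have hcompl : {f | z f = k}ᶜ = {f | z f = k + 1} := by
    ext f
    simp only [Set.mem_compl_iff, Set.mem_ofPred_eq]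
    generalize z f = a
    revert a k
    decide
  have hc1 := hconn k
  have hc2 : (R.dual.induce {f | z f = k}ᶜ).Connected := by
    rw [hcompl]
    exact hconn (k + 1)
  have h1 := hc1.card_vert_le_card_edgeSet_add_one
  have h2 := hc2.card_vert_le_card_edgeSet_add_one
  have h3 := edges_le R (p := p) {f | z f = k} (by
    intro d hd h
    apply hz1 d hd
    rcases zmod2_cases (z (R.faceOf d)) with h4 | h4 <;>
      rcases zmod2_cases (z (R.faceOf d.symm)) with h5 | h5 <;>
      rcases zmod2_cases k with h6 | h6 <;>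
      simp [h4, h5, h6] at h ⊢)
  have h4 : Nat.card {f | z f = k} + Nat.card ({f | z f = k}ᶜ : Set R.Face) =
      Nat.card R.Face := by
    rw [Nat.card_coe_set_eq, Nat.card_coe_set_eq]
    exact Set.ncard_add_ncard_compl _ (Set.toFinite _) (Set.toFinite _)
  -- the number of edges off the cycle
  have h5 : {e : G.edgeSet | e.1 ∉ p.edges}.ncard + Nat.card V = Nat.card G.edgeSet := by
    have h6 : {e : G.edgeSet | e.1 ∈ p.edges}.ncard = Nat.card V := by
      have h7 : (Subtype.val '' {e : G.edgeSet | e.1 ∈ p.edges} : Set (Sym2 V)) =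
          (p.edges.toFinset : Set (Sym2 V)) := by
        ext e
        simp only [Set.mem_image, Set.mem_ofPred_eq, Subtype.exists, exists_and_left,
          exists_prop, exists_eq_right_right, List.coe_toFinset]
        constructor
        · rintro ⟨h, _⟩
          exact h
        · intro h
          exact ⟨h, p.edges_subset_edgeSet h⟩
      rw [← Set.ncard_image_of_injective _ Subtype.val_injective, h7, Set.ncard_coe_finset,
        List.toFinset_card_of_nodup hp.isCycle.isTrail.edges_nodup, Walk.length_edges,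
        hp.length_eq, Nat.card_eq_fintype_card]
    have h8 : {e : G.edgeSet | e.1 ∉ p.edges} = {e : G.edgeSet | e.1 ∈ p.edges}ᶜ := rfl
    rw [← h6, h8, add_comm]
    exact Set.ncard_add_ncard_compl _ (Set.toFinite _) (Set.toFinite _)
  have h6 : Nat.card V + Nat.card R.Face = Nat.card G.edgeSet + 2 := hR
  constructor
  · rw [SimpleGraph.isTree_iff_connected_and_card]
    refine ⟨hc1, ?_⟩
    omega
  · rw [SimpleGraph.isTree_iff_connected_and_card]
    refine ⟨hc2, ?_⟩
    omega

end Plane

end Vale.Agent.P039.H560
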