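import Vale.Agent.P039.H560.Two
import Vale.Agent.P039.H560.Dual

/-!
# P039 (H560): the dual form
-/

namespace Vale.Agent.P039.H560

open SimpleGraph

variable {V : Type*} [Fintype V] [DecidableEq V]

theorem rot_ne_self {G : SimpleGraph V} (hcub : ∀ v, (G.neighborSet v).ncard = 3)
    (R : Rotation G) (d : G.Dart) : R.rot d ≠ d := by
  intro h
  have h1 : ∀ n : ℤ, (R.rot ^ n) d = d := fun n => Function.IsFixedPt.perm_zpow h n
  obtain ⟨y, _, hy, _, hxy, _, _⟩ := nbrs hcub d.fst d.snd d.adj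
  obtain ⟨n, hn⟩ := R.cyclic d ⟨(d.fst, y), hy⟩ rfl
  rw [h1 n] at hn
  exact hxy (congrArg (fun e : G.Dart => e.snd) hn)

/-- **The dual form.** The faces fall into two parts which induce trees in the dual graph; of the
three faces at the tail of the dart `d`, the two sides of `d` are in the first part and the third
face is in the second part. -/
theorem dual_form {G : SimpleGraph V} (hcub : ∀ v, (G.neighborSet v).ncard = 3)
    (hG : G.Connected)
    (hav : ∀ u v, G.Adj u v → (G.deleteEdges {s(u, v)}).IsHamiltonian)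
    (R : Rotation G) (hR : R.Spherical) (d : G.Dart) :
    ∃ S : Set R.Face, (R.dual.induce S).IsTree ∧ (R.dual.induce Sᶜ).IsTree ∧
      R.faceOf d ∈ S ∧ R.faceOf d.symm ∈ S ∧ R.faceOf (R.rot (R.rot d)) ∉ S := by
  have hne : (R.rot d).snd ≠ d.snd := by
    intro h
    apply rot_ne_self hcub R d
    have h1 := R.fst_rot d
    revert h h1
    generalize R.rot d = e
    intro h h1
    ext <;> assumption
  have hadj : G.Adj d.fst (R.rot d).snd := by
    have := (R.rot d).adj
    rwa [R.fst_rot] at this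
  obtain ⟨a, b, ha, hb, hxa, hxb, hab⟩ := nbrs hcub d.fst d.snd d.adj
  -- the third neighbour
  obtain ⟨y, hy, hyd, hyr⟩ : ∃ y, G.Adj d.fst y ∧ y ≠ d.snd ∧ y ≠ (R.rot d).snd := by
    by_cases h : a = (R.rot d).snd
    · exact ⟨b, hb, hxb.symm, fun h' => hab (h.trans h'.symm)⟩
    · exact ⟨a, ha, hxa.symm, h⟩
  obtain ⟨p, hp, hpx, _, hpz⟩ := through hcub hav hadj hy d.adj hyr.symm hne hyd
  obtain ⟨z, hz1, hz0, hz⟩ := dual_trees R hp hG hR
  have hd : ¬ InC p d := hpz
  have hr : InC p (R.rot d) := by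
    unfold InC
    have h1 : (R.rot d).edge = s(d.fst, (R.rot d).snd) := by
      have h2 : (R.rot d).edge = s((R.rot d).fst, (R.rot d).snd) := rfl
      rw [h2, R.fst_rot]
    rw [h1]
    exact hpx
  have h0 := hz0 d hd
  have h1 := hz1 _ hr
  rw [faceOf_rot] at h1
  refine ⟨{f | z f = z (R.faceOf d)}, (hz _).1, (hz _).2, rfl, h0, fun h2 => h1 ?_⟩
  have h3 : z (R.faceOf (R.rot (R.rot d))) = z (R.faceOf d) := h2
  rw [faceOf_rot] at h3
  rw [h3, h0]

end Vale.Agent.P039.H560
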