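import Vale.Agent.P039.Defs
import Mathlib.Combinatorics.SimpleGraph.Connectivity.Subgraph
import Mathlib.Data.Set.Card

/-!
# P039 (H560): Hamiltonian cycles through every path with three vertices
-/

namespace Vale.Agent.P039.H560

open SimpleGraph

variable {V : Type*} [Fintype V] [DecidableEq V]

/-- The Hamiltonian cycles of `G`, as sets of edges. -/
def hamCycles (G : SimpleGraph V) : Set (Set (Sym2 V)) :=
  {E | ∃ (v : V) (p : G.Walk v v), p.IsHamiltonianCycle ∧ {e | e ∈ p.edges} = E}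

theorem card_ne_one {G : SimpleGraph V} (hcub : ∀ v, (G.neighborSet v).ncard = 3) (v : V) :
    Fintype.card V ≠ 1 := by
  intro h1
  have h2 := hcub v
  have h3 : (G.neighborSet v).ncard ≤ 0 := by
    have h4 : G.neighborSet v = ∅ := by
      ext w
      simp only [mem_neighborSet, Set.mem_empty_iff_false, iff_false]
      intro hvw
      obtain ⟨a, ha⟩ := Fintype.card_eq_one_iff.1 h1
      exact hvw.ne ((ha v).trans (ha w).symm)
    rw [h4, Set.ncard_empty]
  omega

/-- a Hamiltonian cycle which avoids an edge at `v` uses the other two -/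
theorem through {G : SimpleGraph V} (hcub : ∀ v, (G.neighborSet v).ncard = 3)
    (hav : ∀ u v, G.Adj u v → (G.deleteEdges {s(u, v)}).IsHamiltonian)
    {v x y z : V} (hx : G.Adj v x) (hy : G.Adj v y) (hz : G.Adj v z) (hxy : x ≠ y)
    (hxz : x ≠ z) (hyz : y ≠ z) :
    ∃ p : G.Walk v v, p.IsHamiltonianCycle ∧ s(v, x) ∈ p.edges ∧ s(v, y) ∈ p.edges ∧
      s(v, z) ∉ p.edges := by
  have hN : G.neighborSet v = {x, y, z} := by
    symm
    refine Set.eq_of_subset_of_ncard_le ?_ ?_ (Set.toFinite _)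
    · rintro w (rfl | rfl | rfl)
      · exact hx
      · exact hy
      · exact hz
    · rw [hcub v]
      rw [Set.ncard_eq_three.2 ⟨x, y, z, hxy, hxz, hyz, rfl⟩]
  obtain ⟨a, p, hp⟩ := hav v z hz (card_ne_one hcub v)
  have hle : G.deleteEdges {s(v, z)} ≤ G := deleteEdges_le _
  -- rotate and map
  have hva : v ∈ p.support := hp.mem_support v
  set q := p.rotate v hva with hq
  have hqh : q.IsHamiltonianCycle := hp.rotate _
  have hnot : s(v, z) ∉ q.edges := by
    intro h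
    have h1 := q.edges_subset_edgeSet h
    rw [mem_edgeSet, deleteEdges_adj] at h1
    exact h1.2 rfl
  have h2 : (q.toSubgraph.neighborSet v).ncard = 2 :=
    hqh.isCycle.ncard_neighborSet_toSubgraph_eq_two (hqh.mem_support v)
  have h3 : q.toSubgraph.neighborSet v ⊆ {x, y} := by
    intro w hw
    have h4 : q.toSubgraph.Adj v w := hw
    have h5 : w ∈ G.neighborSet v := hle h4.adj_sub
    rw [hN] at h5
    rcases h5 with rfl | rfl | rfl
    · exact Or.inl rfl
    · exact Or.inr rfl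
    · exact absurd ((Walk.adj_toSubgraph_iff_mem_edges).1 h4) hnot
  have h4 : q.toSubgraph.neighborSet v = {x, y} := by
    refine Set.eq_of_subset_of_ncard_le h3 ?_ (Set.toFinite _)
    rw [h2, Set.ncard_pair hxy]
  have hx' : s(v, x) ∈ q.edges := (Walk.adj_toSubgraph_iff_mem_edges).1
    (show x ∈ q.toSubgraph.neighborSet v by rw [h4]; exact Or.inl rfl)
  have hy' : s(v, y) ∈ q.edges := (Walk.adj_toSubgraph_iff_mem_edges).1
    (show y ∈ q.toSubgraph.neighborSet v by rw [h4]; exact Or.inr rfl)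
  refine ⟨q.mapLe hle, ?_, ?_, ?_, ?_⟩
  · exact hqh.map (f := Hom.ofLE hle) Function.bijective_id
  · rw [Walk.edges_mapLe_eq_edges]
    exact hx'
  · rw [Walk.edges_mapLe_eq_edges]
    exact hy'
  · rw [Walk.edges_mapLe_eq_edges]
    exact hnot

theorem nbrs {G : SimpleGraph V} (hcub : ∀ v, (G.neighborSet v).ncard = 3) (v x : V)
    (hx : G.Adj v x) : ∃ y z, G.Adj v y ∧ G.Adj v z ∧ x ≠ y ∧ x ≠ z ∧ y ≠ z := by
  obtain ⟨a, b, c, hab, hac, hbc, h⟩ := Set.ncard_eq_three.1 (hcub v)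
  have ha : G.Adj v a := by
    have : a ∈ G.neighborSet v := by rw [h]; exact Or.inl rfl
    exact this
  have hb : G.Adj v b := by
    have : b ∈ G.neighborSet v := by rw [h]; exact Or.inr (Or.inl rfl)
    exact this
  have hc : G.Adj v c := by
    have : c ∈ G.neighborSet v := by rw [h]; exact Or.inr (Or.inr rfl)
    exact this
  have hx' : x ∈ G.neighborSet v := hx
  rw [h] at hx'
  rcases hx' with rfl | rfl | rfl
  · exact ⟨b, c, hb, hc, hab, hac, hbc⟩
  · exact ⟨a, c, ha, hc, hab.symm, hbc, hac⟩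
  · exact ⟨a, b, ha, hb, hac.symm, hbc.symm, hab⟩

/-- every path with three vertices lies on a Hamiltonian cycle -/
theorem two_path {G : SimpleGraph V} (hcub : ∀ v, (G.neighborSet v).ncard = 3)
    (hav : ∀ u v, G.Adj u v → (G.deleteEdges {s(u, v)}).IsHamiltonian)
    {v x y : V} (hx : G.Adj v x) (hy : G.Adj v y) (hxy : x ≠ y) :
    ∃ p : G.Walk v v, p.IsHamiltonianCycle ∧ s(v, x) ∈ p.edges ∧ s(v, y) ∈ p.edges := by
  obtain ⟨a, b, ha, hb, hxa, hxb, hab⟩ := nbrs hcub v x hx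
  have hz : ∃ z, G.Adj v z ∧ x ≠ z ∧ y ≠ z := by
    by_cases h : y = a
    · exact ⟨b, hb, hxb, by rw [h]; exact hab⟩
    · exact ⟨a, ha, hxa, h⟩
  obtain ⟨z, hz, hxz, hyz⟩ := hz
  obtain ⟨p, hp, h1, h2, _⟩ := through hcub hav hx hy hz hxy hxz hyz
  exact ⟨p, hp, h1, h2⟩

/-- every edge lies on two Hamiltonian cycles and is avoided by one -/
theorem two_le {G : SimpleGraph V} (hcub : ∀ v, (G.neighborSet v).ncard = 3)
    (hav : ∀ u v, G.Adj u v → (G.deleteEdges {s(u, v)}).IsHamiltonian) {v x : V}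
    (hx : G.Adj v x) :
    2 ≤ {E ∈ hamCycles G | s(v, x) ∈ E}.ncard ∧ 1 ≤ {E ∈ hamCycles G | s(v, x) ∉ E}.ncard := by
  obtain ⟨y, z, hy, hz, hxy, hxz, hyz⟩ := nbrs hcub v x hx
  obtain ⟨p, hp, hpx, hpy, hpz⟩ := through hcub hav hx hy hz hxy hxz hyz
  obtain ⟨q, hq, hqx, hqz, hqy⟩ := through hcub hav hx hz hy hxz hxy hyz.symm
  obtain ⟨r, hr, hry, hrz, hrx⟩ := through hcub hav hy hz hx hyz hxy.symm hxz.symm
  constructor
  · have hne : {e | e ∈ p.edges} ≠ {e | e ∈ q.edges} := by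
      intro h
      have : s(v, y) ∈ {e | e ∈ q.edges} := by
        rw [← h]
        exact hpy
      exact hqy this
    rw [← Set.ncard_pair hne]
    refine Set.ncard_le_ncard ?_ (Set.toFinite _)
    rintro E (rfl | rfl)
    · exact ⟨⟨v, p, hp, rfl⟩, hpx⟩
    · exact ⟨⟨v, q, hq, rfl⟩, hqx⟩
  · rw [← Set.ncard_singleton {e | e ∈ r.edges}]
    refine Set.ncard_le_ncard ?_ (Set.toFinite _)
    rintro E rfl
    exact ⟨⟨v, r, hr, rfl⟩, hrx⟩

/-- at least three Hamiltonian cycles -/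
theorem three_le [Nonempty V] {G : SimpleGraph V} (hcub : ∀ v, (G.neighborSet v).ncard = 3)
    (hav : ∀ u v, G.Adj u v → (G.deleteEdges {s(u, v)}).IsHamiltonian) :
    3 ≤ (hamCycles G).ncard := by
  obtain ⟨v⟩ := (inferInstance : Nonempty V)
  obtain ⟨x, _, _, _, _, _, h⟩ := Set.ncard_eq_three.1 (hcub v)
  have hx : G.Adj v x := by
    have : x ∈ G.neighborSet v := by rw [h]; exact Or.inl rfl
    exact this
  obtain ⟨h1, h2⟩ := two_le hcub hav hx
  have h3 : hamCycles G = {E ∈ hamCycles G | s(v, x) ∈ E} ∪ {E ∈ hamCycles G | s(v, x) ∉ E} := by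
    ext E
    simp only [Set.mem_union, Set.mem_ofPred_eq]
    tauto
  rw [h3, Set.ncard_union_eq ?_ (Set.toFinite _) (Set.toFinite _)]
  · omega
  · rw [Set.disjoint_left]
    rintro E ⟨_, hE⟩ ⟨_, hE'⟩
    exact hE' hE

end Vale.Agent.P039.H560
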